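import Vale.Agent.P362.H32.Xor

/-!
# The joint range of quantum and randomized query complexity
-/

namespace Vale.Agent.P362.H32

open Vale.Agent.P362

/-- assembly: from a function `f` with small complexities to the function with a parity -/
theorem assemble {n : ℕ} (hn : 1 ≤ n) (f : (Fin n → Bool) → Bool) (m T d : ℕ)
    (hT : Q f ≤ T) (t : DT (Fin n)) (ht : t.depth ≤ d) (he : ∀ x, t.eval x = f x) :
    ∃ (N : ℕ) (_ : 1 ≤ N) (g : (Fin N → Bool) → Bool),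
      (m : ℝ) ≤ 40 * Q g ∧ Q g ≤ T + m ∧ R f ≤ R g ∧
      ∃ t' : DT (Fin N), t'.depth ≤ d + m ∧ ∀ x, t'.eval x = g x := by
  have : Nonempty (Fin n) := ⟨⟨0, hn⟩⟩
  have hq := quant_xf f m (Q f) (UB.quantComputes_Q n hn f)
  obtain ⟨t', ht', he'⟩ := xf_tree f m d t ht he
  let en : (Fin n ⊕ Fin m) ≃ Fin (Fintype.card (Fin n ⊕ Fin m)) := Fintype.equivFin _
  have hN : 1 ≤ Fintype.card (Fin n ⊕ Fin m) := Fintype.card_pos
  refine ⟨Fintype.card (Fin n ⊕ Fin m), hN, fun y => xf f m fun i => y (en i), ?_, ?_, ?_,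
    Tr.mapT en t', ?_, fun x => ?_⟩
  · rw [Tr.Q_equiv en (xf f m)]
    have h1 : QuantComputes (xf f m) (Q (xf f m)) :=
      Nat.sInf_mem (s := {T | QuantComputes (xf f m) T}) ⟨_, hq⟩
    exact le_of_quant_xf f m _ h1
  · rw [Tr.Q_equiv en (xf f m)]
    exact (Tr.Q_le hq).trans (Nat.add_le_add_right hT m)
  · rw [Tr.R_equiv en (xf f m)]
    exact R_le_xf f m
  · rw [Tr.mapT_depth]
    exact ht'
  · rw [Tr.mapT_eval]
    exact he' _

/-- the tree for one bit -/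
def tr1 : DT (Fin 1) := .node 0 (.leaf false) (.leaf true)

theorem tr1_depth : tr1.depth ≤ 1 := le_rfl

theorem tr1_eval (x : Fin 1 → Bool) : tr1.eval x = H4.bit1 x := by
  unfold tr1 H4.bit1
  rw [DT.eval_node]
  cases x 0 <;> rfl

/-- Every pair `q ≤ r ≤ q ^ 4` is the pair of the quantum and of the randomized query complexity
of some total function, up to a factor `2 ^ O(√ log q)`. -/
theorem joint : ∃ A : ℝ, ∀ q r : ℕ, 1 ≤ q → q ≤ r → r ≤ q ^ 4 →
    ∃ (n : ℕ) (_ : 1 ≤ n) (f : (Fin n → Bool) → Bool),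
      (q : ℝ) / 2 ^ (A * √(Real.logb 2 q)) ≤ Q f ∧ (Q f : ℝ) ≤ q ∧
      (r : ℝ) / 2 ^ (A * √(Real.logb 2 q)) ≤ R f ∧
      ∃ t : DT (Fin n), t.depth ≤ r ∧ ∀ x, t.eval x = f x := by
  obtain ⟨A0, hA0⟩ := H4.rate
  refine ⟨|A0| + 32, fun q r hq hqr hr => ?_⟩
  rcases Nat.eq_or_lt_of_le hq with hq1 | hq2
  · -- `q = 1`
    subst hq1
    have hr1 : r = 1 := by omega
    subst hr1
    refine ⟨1, le_rfl, H4.bit1, ?_, ?_, ?_, tr1, tr1_depth, tr1_eval⟩
    · simp only [Nat.cast_one, Real.logb_one, Real.sqrt_zero, mul_zero, Real.rpow_zero, div_one]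
      exact_mod_cast H4.Q_bit1_ge
    · exact_mod_cast H4.Q_bit1
    · simp only [Nat.cast_one, Real.logb_one, Real.sqrt_zero, mul_zero, Real.rpow_zero, div_one]
      exact_mod_cast H4.R_bit1
  -- `q ≥ 2`
  have hq' : (2 : ℝ) ≤ q := by exact_mod_cast hq2
  have hL1 : 1 ≤ √(Real.logb 2 q) := by
    rw [Real.one_le_sqrt, Real.le_logb_iff_rpow_le (by norm_num) (by linarith), Real.rpow_one]
    exact hq'
  set L := √(Real.logb 2 q) with hL
  have hE : (2 : ℝ) ^ (|A0| * L) * 2 ^ 32 ≤ 2 ^ ((|A0| + 32) * L) := by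
    rw [add_mul, Real.rpow_add (by norm_num)]
    refine mul_le_mul_of_nonneg_left ?_ (Real.rpow_nonneg (by norm_num) _)
    rw [← Real.rpow_natCast]
    refine Real.rpow_le_rpow_of_exponent_le (by norm_num) ?_
    push_cast
    linarith
  have hE0 : (1 : ℝ) ≤ 2 ^ (|A0| * L) :=
    Real.one_le_rpow (by norm_num) (by positivity)
  have hE1 : (2 : ℝ) ^ 32 ≤ 2 ^ ((|A0| + 32) * L) := by nlinarith
  have hEpos : (0 : ℝ) < 2 ^ ((|A0| + 32) * L) := Real.rpow_pos_of_pos (by norm_num) _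
  -- the parity part
  obtain ⟨m, hm⟩ : ∃ m, m = q / 2 := ⟨_, rfl⟩
  have hm1 : q ≤ 3 * m := by omega
  have hQlow : ∀ a : ℕ, (m : ℝ) ≤ 40 * a → (q : ℝ) / 2 ^ ((|A0| + 32) * L) ≤ a := by
    intro a ha
    rw [div_le_iff₀ hEpos]
    have h1 : (q : ℝ) ≤ 3 * m := by exact_mod_cast hm1
    have h2 : (0 : ℝ) ≤ a := Nat.cast_nonneg a
    nlinarith
  -- the hard part
  obtain ⟨s, hs⟩ : ∃ s, s = Nat.sqrt (Nat.sqrt (r / 2)) := ⟨_, rfl⟩
  have hs1 : s ^ 4 ≤ r / 2 := by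
    have h1 : s * s ≤ Nat.sqrt (r / 2) := by rw [hs]; exact Nat.sqrt_le _
    have h2 : Nat.sqrt (r / 2) * Nat.sqrt (r / 2) ≤ r / 2 := Nat.sqrt_le _
    calc s ^ 4 = (s * s) * (s * s) := by ring
      _ ≤ Nat.sqrt (r / 2) * Nat.sqrt (r / 2) := Nat.mul_le_mul h1 h1
      _ ≤ r / 2 := h2
  have hs2 : r / 2 < (s + 1) ^ 4 := by
    have h1 : Nat.sqrt (r / 2) < (s + 1) * (s + 1) := by
      rw [hs]
      exact Nat.lt_succ_sqrt _
    have h2 : r / 2 < (Nat.sqrt (r / 2) + 1) * (Nat.sqrt (r / 2) + 1) := Nat.lt_succ_sqrt _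
    calc r / 2 < (Nat.sqrt (r / 2) + 1) * (Nat.sqrt (r / 2) + 1) := h2
      _ ≤ ((s + 1) * (s + 1)) * ((s + 1) * (s + 1)) := Nat.mul_le_mul h1 h1
      _ = (s + 1) ^ 4 := by ring
  have hsq : s ≤ q := by
    have h1 : s ^ 4 ≤ q ^ 4 := hs1.trans ((Nat.div_le_self r 2).trans hr)
    exact (Nat.pow_le_pow_iff_left (by norm_num)).1 h1
  obtain ⟨k, hk⟩ : ∃ k, k = s / 40 := ⟨_, rfl⟩
  rcases Nat.eq_zero_or_pos k with hk0 | hk1
  · -- small `r`
    have hs40 : s + 1 ≤ 40 := by omega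
    have hr2 : r / 2 < 40 ^ 4 := lt_of_lt_of_le hs2 (Nat.pow_le_pow_left hs40 4)
    have hr3 : r ≤ 5120000 := by omega
    obtain ⟨N, hN, g, h1, h2, h3, t', ht', he'⟩ :=
      assemble le_rfl H4.bit1 m 1 1 H4.Q_bit1 tr1 tr1_depth tr1_eval
    refine ⟨N, hN, g, hQlow _ h1, ?_, ?_, t', ht'.trans (by omega), he'⟩
    · exact_mod_cast h2.trans (by omega)
    · have h4 : (1 : ℝ) ≤ R g := by exact_mod_cast H4.R_bit1.trans h3
      refine le_trans ?_ h4
      rw [div_le_one hEpos]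
      have h5 : (r : ℝ) ≤ 5120000 := by exact_mod_cast hr3
      linarith
  · -- large `r`
    obtain ⟨n, hn, f, -, h1, h2⟩ := hA0 k hk1
    have hQk : Q f ≤ k := by exact_mod_cast h1
    obtain ⟨t, ht, he⟩ := UB.exists_tree f (Q f) (UB.quantComputes_Q n hn f)
    have ht2 : t.depth ≤ r / 2 := by
      have h3 : (t.depth : ℝ) ≤ ((2560000 * k ^ 4 : ℕ) : ℝ) := by
        refine ht.trans ?_
        push_cast
        have : (Q f : ℝ) ^ 4 ≤ (k : ℝ) ^ 4 := pow_le_pow_left₀ (Nat.cast_nonneg _) h1 4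
        linarith
      have h4 : t.depth ≤ 2560000 * k ^ 4 := by exact_mod_cast h3
      have h5 : (40 * k) ^ 4 ≤ s ^ 4 := Nat.pow_le_pow_left (by omega) 4
      have h6 : (40 * k) ^ 4 = 2560000 * k ^ 4 := by ring
      omega
    obtain ⟨N, hN, g, h3, h4, h5, t', ht', he'⟩ := assemble hn f m k (r / 2) hQk t ht2 he
    refine ⟨N, hN, g, hQlow _ h3, ?_, ?_, t', ht'.trans (by omega), he'⟩
    · have : k + m ≤ q := by omega
      exact_mod_cast h4.trans this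
    · have h6 : (R f : ℝ) ≤ R g := by exact_mod_cast h5
      refine le_trans ?_ (h2.trans h6)
      have hkpos : (1 : ℝ) ≤ k := by exact_mod_cast hk1
      have hkq : (k : ℝ) ≤ q := by exact_mod_cast (show k ≤ q by omega)
      -- the denominators
      have h7 : (2 : ℝ) ^ (A0 * √(Real.logb 2 k)) ≤ 2 ^ (|A0| * L) := by
        refine Real.rpow_le_rpow_of_exponent_le (by norm_num) ?_
        have h8 : √(Real.logb 2 k) ≤ L := by
          rw [hL]
          refine Real.sqrt_le_sqrt ?_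
          exact Real.logb_le_logb_of_le (by norm_num) (by linarith) hkq
        calc A0 * √(Real.logb 2 k) ≤ |A0| * √(Real.logb 2 k) :=
              mul_le_mul_of_nonneg_right (le_abs_self _) (Real.sqrt_nonneg _)
          _ ≤ |A0| * L := mul_le_mul_of_nonneg_left h8 (abs_nonneg _)
      have h9 : r ≤ 81920000 * k ^ 4 := by
        have h10 : (s + 1) ^ 4 ≤ (80 * k) ^ 4 := Nat.pow_le_pow_left (by omega) 4
        have h11 : (80 * k) ^ 4 = 40960000 * k ^ 4 := by ring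
        omega
      have h12 : (r : ℝ) ≤ 81920000 * (k : ℝ) ^ 4 := by exact_mod_cast h9
      have h13 : (0 : ℝ) < 2 ^ (A0 * √(Real.logb 2 k)) := Real.rpow_pos_of_pos (by norm_num) _
      rw [div_le_div_iff₀ hEpos h13]
      have h14 : (0 : ℝ) ≤ (k : ℝ) ^ 4 := by positivity
      calc (r : ℝ) * 2 ^ (A0 * √(Real.logb 2 k))
          ≤ (81920000 * (k : ℝ) ^ 4) * 2 ^ (|A0| * L) :=
            mul_le_mul h12 h7 h13.le (by positivity)
        _ ≤ (2 ^ 32 * (k : ℝ) ^ 4) * 2 ^ (|A0| * L) := by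
            refine mul_le_mul_of_nonneg_right ?_ (by linarith)
            nlinarith
        _ = (k : ℝ) ^ 4 * (2 ^ (|A0| * L) * 2 ^ 32) := by ring
        _ ≤ (k : ℝ) ^ 4 * 2 ^ ((|A0| + 32) * L) := mul_le_mul_of_nonneg_left hE h14

end Vale.Agent.P362.H32
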