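import Vale.Agent.P362.H4.Final

/-!
# Adding a parity of fresh bits to a Boolean function

`xf f m` is the exclusive or of `f` and of the parity of `m` fresh bits. It is computed by a
quantum algorithm with `m` more queries, by a decision tree with `m` more queries, and its
complexities are at least those of `f` (randomized) and of the parity (quantum).
-/

namespace Vale.Agent.P362.H32

open Vale.Agent.P362 Finset Matrix
open scoped Kronecker

/-! ### from the official model to the circuit model -/

section toAch

variable {ι : Type} [Fintype ι] [DecidableEq ι]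

/-- the official query is a phase query between two Hadamard gates -/
theorem oracle_eq (m : ℕ) (x : ι → Bool) :
    oracle m x = hadS ι m * phaseQ (fun w : ι × Bool × Fin m => if w.2.1 then some w.1 else none)
      x * hadS ι m := by
  have h : oracle m x * hadS ι m =
      hadS ι m * phaseQ (fun w : ι × Bool × Fin m => if w.2.1 then some w.1 else none) x := by
    ext a c
    rw [oracle_mul_apply, phaseQ_eq, Matrix.mul_diagonal]
    obtain ⟨i, b, z⟩ := a
    obtain ⟨i', b', z'⟩ := c
    simp only [hadS, Matrix.kroneckerMap_apply, Matrix.one_apply]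
    by_cases h1 : i = i'
    · subst h1
      by_cases h2 : z = z'
      · subst h2
        cases hx : x i <;> cases b <;> cases b' <;> simp [hadB, hx]
      · simp [h2]
    · simp [h1]
  have h2 : hadS ι m * hadS ι m = 1 := by
    rw [hadS, ← Matrix.mul_kronecker_mul, ← Matrix.mul_kronecker_mul, hadB_mul_self]
    simp
  rw [← h, Matrix.mul_assoc, h2, Matrix.mul_one]

/-- the matrix of the first `t` queries -/
noncomputable def runM (A : QAlg ι) (x : ι → Bool) : ℕ →
    Matrix (ι × Bool × Fin A.m) (ι × Bool × Fin A.m) ℂ
  | 0 => (A.U 0).1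
  | t + 1 => (A.U (t + 1)).1 * (oracle A.m x * runM A x t)

theorem state_runM (A : QAlg ι) (x : ι → Bool) (t : ℕ) :
    A.state x t = (runM A x t).mulVec (Pi.single A.start 1) := by
  induction t with
  | zero => rfl
  | succ t ih =>
    have h : A.state x (t + 1) = (A.U (t + 1)).1.mulVec ((oracle A.m x).mulVec (A.state x t)) :=
      rfl
    rw [h, ih, Matrix.mulVec_mulVec, Matrix.mulVec_mulVec, Matrix.mul_assoc]
    rfl

theorem qf_runM (A : QAlg ι) (t : ℕ) : QF t (fun x => runM A x t) := by
  induction t with
  | zero => exact QF.const (A.U 0).2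
  | succ t ih =>
    have h1 := (QF.const (ι := ι) (mul_mem (A.U (t + 1)).2 (hadS_mem (ι := ι) (m := A.m)))).mul
      ((QF.query (ι := ι)
        (fun w : ι × Bool × Fin A.m => if w.2.1 then some w.1 else none)).mul
        ((QF.const (ι := ι) (hadS_mem (ι := ι) (m := A.m))).mul ih))
    refine h1.congr (by omega) fun x => ?_
    change _ = (A.U (t + 1)).1 * (oracle A.m x * runM A x t)
    rw [oracle_eq]
    simp only [Matrix.mul_assoc]

theorem ach_of_quant {f : (ι → Bool) → Bool} {T : ℕ} (h : QuantComputes f T) :
    ∃ μ : (ι → Bool) → Bool → ℝ, Ach T μ ∧ ∀ x, 2 / 3 ≤ μ x (f x) := by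
  classical
  obtain ⟨A, hA⟩ := h
  refine ⟨fun x b => A.prob T x b, ?_, hA⟩
  refine QDist.toAch ⟨_, inferInstance, inferInstance, fun x => runM A x T, A.start, A.out,
    qf_runM A T, fun x b => ?_⟩
  change A.prob T x b = _
  unfold QAlg.prob
  refine Finset.sum_congr rfl fun w _ => ?_
  rw [state_runM, mulVec_single_apply']
  split_ifs <;> rfl

end toAch

/-! ### renaming the variables -/

section rename

variable {ι κ : Type}

theorem seqP_rename {β : Type} [Fintype β] [DecidableEq β] (U : ℕ → Matrix β β ℂ)
    (q : ℕ → β → Option ι) (e : ι → κ) (y : κ → Bool) (t : ℕ) :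
    seqP U (fun s b => (q s b).map e) y t = seqP U q (fun i => y (e i)) t := by
  induction t with
  | zero => rfl
  | succ t ih =>
    simp only [seqP]
    rw [ih]
    congr 2
    unfold phaseQ
    congr 1
    funext b
    cases hq : q t b <;> simp [hq]

theorem ach_rename {Ω : Type} [DecidableEq Ω] {T : ℕ} {μ : (ι → Bool) → Ω → ℝ} (h : Ach T μ)
    (e : ι → κ) : Ach T (fun (y : κ → Bool) o => μ (fun i => y (e i)) o) := by
  obtain ⟨β, i1, i2, V, b0, out, ⟨U, q, hU, hV⟩, hp⟩ := h.toQDist
  refine QDist.toAch ⟨β, i1, i2, fun y => V (fun i => y (e i)), b0, out,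
    ⟨U, fun s b => (q s b).map e, hU, fun y => ?_⟩, fun y a => hp _ a⟩
  change V (fun i => y (e i)) = _
  rw [seqP_rename, hV]

end rename

/-! ### the parity of a list of bits -/

section parity

variable {κ : Type}

/-- the parity of the bits in a list -/
def par (x : κ → Bool) (l : List κ) : Bool := l.foldr (fun i c => xor (x i) c) false

/-- the decision tree which reads all the bits of a list and outputs `b` plus their parity -/
def parT : List κ → Bool → DT κ
  | [], b => .leaf b
  | i :: l, b => .node i (parT l b) (parT l (!b))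

theorem parT_depth (l : List κ) (b : Bool) : (parT l b).depth = l.length := by
  induction l generalizing b with
  | nil => rfl
  | cons i l ih => simp only [parT, DT.depth_node, ih, max_self, List.length_cons]

theorem parT_eval (l : List κ) (b : Bool) (x : κ → Bool) :
    (parT l b).eval x = xor b (par x l) := by
  induction l generalizing b with
  | nil => simp [parT, par]
  | cons i l ih =>
    have h : par x (i :: l) = xor (x i) (par x l) := rfl
    rw [h]
    simp only [parT, DT.eval_node, ih]
    cases x i <;> cases b <;> cases par x l <;> rfl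

variable [DecidableEq κ]

/-- flip one bit -/
def flp (x : κ → Bool) (i : κ) : κ → Bool := Function.update x i (!(x i))

theorem flp_flp (x : κ → Bool) (i : κ) : flp (flp x i) i = x := by
  funext j
  by_cases h : j = i
  · subst h
    simp [flp]
  · simp [flp, h]

theorem par_flp_notMem {x : κ → Bool} {i : κ} {l : List κ} (h : i ∉ l) :
    par (flp x i) l = par x l := by
  induction l with
  | nil => rfl
  | cons j l ih =>
    rw [List.mem_cons, not_or] at h
    have h1 : par (flp x i) (j :: l) = xor (flp x i j) (par (flp x i) l) := rfl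
    have h2 : par x (j :: l) = xor (x j) (par x l) := rfl
    have h3 : flp x i j = x j := Function.update_of_ne (Ne.symm h.1) _ _
    rw [h1, h2, h3, ih h.2]

theorem par_flp_mem {x : κ → Bool} {i : κ} {l : List κ} (hl : l.Nodup) (h : i ∈ l) :
    par (flp x i) l = !par x l := by
  induction l with
  | nil => exact absurd h List.not_mem_nil
  | cons j l ih =>
    have h1 : par (flp x i) (j :: l) = xor (flp x i j) (par (flp x i) l) := rfl
    have h2 : par x (j :: l) = xor (x j) (par x l) := rfl
    rw [List.nodup_cons] at hl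
    rw [h1, h2]
    by_cases hij : i = j
    · subst hij
      rw [par_flp_notMem hl.1]
      have h3 : flp x i i = !(x i) := Function.update_self _ _ _
      rw [h3]
      cases x i <;> cases par x l <;> rfl
    · have h4 : i ∈ l := by
        rcases List.mem_cons.1 h with h | h
        · exact absurd h hij
        · exact h
      have h3 : flp x i j = x j := Function.update_of_ne (Ne.symm hij) _ _
      rw [h3, ih hl.2 h4]
      cases x j <;> cases par x l <;> rfl

end parity

/-! ### the quantum lower bound -/

section lower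

variable {κ : Type} [Fintype κ] [DecidableEq κ]

/-- If every bit of `S` is sensitive on every input, a quantum algorithm needs at least `|S|/40`
queries. -/
theorem card_le_of_quant (g : (κ → Bool) → Bool) (S : Finset κ)
    (hS : ∀ x, ∀ i ∈ S, g (flp x i) ≠ g x) (T : ℕ) (h : QuantComputes g T) :
    (S.card : ℝ) ≤ 40 * T := by
  obtain ⟨A, hA⟩ := h
  have key : ∀ x, ∀ i ∈ S, (1 : ℝ) / 20 ≤ UB.wts A T x i + UB.wts A T (flp x i) i := by
    intro x i hi
    have h1 := UB.hybrid A T x (flp x i)
    have h2 := UB.final_ip g A T hA x (flp x i) (Ne.symm (hS x i hi))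
    have hf : Finset.univ.filter (fun j => x j ≠ flp x i j) = {i} := by
      ext j
      simp only [Finset.mem_filter, Finset.mem_univ, true_and, Finset.mem_singleton]
      constructor
      · intro hj
        by_contra hne
        exact hj (Function.update_of_ne hne _ _).symm
      · rintro rfl
        have : flp x j j = !(x j) := Function.update_self _ _ _
        rw [this]
        cases x j <;> simp
    rw [hf, Finset.sum_singleton] at h1
    have h3 : (1 : ℝ) ≤ ‖UB.ip (A.state x T) (A.state (flp x i) T)‖ +
        ‖UB.ip (A.state x T) (A.state (flp x i) T) - 1‖ := by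
      calc (1 : ℝ) = ‖(1 : ℂ)‖ := by simp
        _ = ‖UB.ip (A.state x T) (A.state (flp x i) T) -
            (UB.ip (A.state x T) (A.state (flp x i) T) - 1)‖ := by
            congr 1
            ring
        _ ≤ _ := norm_sub_le _ _
    have ha := UB.wts_nonneg A T x i
    have hb := UB.wts_nonneg A T (flp x i) i
    have h4 : Real.sqrt (UB.wts A T x i * UB.wts A T (flp x i) i) ≤
        (UB.wts A T x i + UB.wts A T (flp x i) i) / 2 := by
      rw [Real.sqrt_le_left (by positivity)]
      nlinarith [sq_nonneg (UB.wts A T x i - UB.wts A T (flp x i) i)]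
    linarith
  have hsum : ∑ x : κ → Bool, ∑ i ∈ S, (1 : ℝ) / 20 ≤
      ∑ x : κ → Bool, ∑ i ∈ S, (UB.wts A T x i + UB.wts A T (flp x i) i) :=
    Finset.sum_le_sum fun x _ => Finset.sum_le_sum fun i hi => key x i hi
  have hflip : ∀ i : κ, ∑ x : κ → Bool, UB.wts A T (flp x i) i =
      ∑ x : κ → Bool, UB.wts A T x i := by
    intro i
    refine Finset.sum_nbij' (fun x => flp x i) (fun x => flp x i) (fun _ _ => Finset.mem_univ _)
      (fun _ _ => Finset.mem_univ _) (fun x _ => flp_flp x i) (fun x _ => flp_flp x i)
      (fun x _ => rfl)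
  have hR : ∑ x : κ → Bool, ∑ i ∈ S, (UB.wts A T x i + UB.wts A T (flp x i) i) =
      2 * ∑ x : κ → Bool, ∑ i ∈ S, UB.wts A T x i := by
    rw [Finset.sum_comm, Finset.sum_comm (s := Finset.univ) (t := S), Finset.mul_sum]
    refine Finset.sum_congr rfl fun i _ => ?_
    rw [Finset.sum_add_distrib, hflip, two_mul]
  have hT : ∑ x : κ → Bool, ∑ i ∈ S, UB.wts A T x i ≤ ∑ x : κ → Bool, (T : ℝ) := by
    refine Finset.sum_le_sum fun x _ => ?_
    rw [← UB.sum_wts A T x]
    exact Finset.sum_le_sum_of_subset_of_nonneg (Finset.subset_univ S)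
      fun i _ _ => UB.wts_nonneg A T x i
  rw [hR] at hsum
  simp only [Finset.sum_const, nsmul_eq_mul] at hsum hT
  have hN : (0 : ℝ) < ((Finset.univ : Finset (κ → Bool)).card : ℝ) := by
    exact_mod_cast Finset.card_pos.2 Finset.univ_nonempty
  set N : ℝ := ((Finset.univ : Finset (κ → Bool)).card : ℝ) with hNdef
  have h5 : N * ((S.card : ℝ) * (1 / 20)) ≤ N * (2 * T) := by nlinarith
  have h6 := le_of_mul_le_mul_left h5 hN
  linarith

end lower

/-! ### restrictions -/

section restrict

variable {ι κ : Type}

/-- restriction of a decision tree: each variable becomes a variable or a constant -/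
def subT (c : κ → ι ⊕ Bool) : DT κ → DT ι
  | .leaf b => .leaf b
  | .node v t0 t1 => Sum.elim (fun i => .node i (subT c t0) (subT c t1))
      (fun b => if b then subT c t1 else subT c t0) (c v)

theorem subT_eval (c : κ → ι ⊕ Bool) (t : DT κ) (x : ι → Bool) :
    (subT c t).eval x = t.eval (fun v => Sum.elim x id (c v)) := by
  induction t with
  | leaf b => rfl
  | node v t0 t1 h0 h1 =>
    simp only [subT, DT.eval_node]
    cases hc : c v with
    | inl i =>
      simp only [Sum.elim_inl, DT.eval_node, h0, h1]
      rfl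
    | inr b => cases b <;> simp [h0, h1]

theorem subT_depth (c : κ → ι ⊕ Bool) (t : DT κ) : (subT c t).depth ≤ t.depth := by
  induction t with
  | leaf b => exact le_rfl
  | node v t0 t1 h0 h1 =>
    simp only [subT, DT.depth_node]
    cases hc : c v with
    | inl i =>
      simp only [Sum.elim_inl, DT.depth_node]
      omega
    | inr b =>
      cases b
      · simp only [Sum.elim_inr, Bool.false_eq_true, if_false]
        omega
      · simp only [Sum.elim_inr, if_true]
        omega

theorem rand_restrict (c : κ → ι ⊕ Bool) (g : (κ → Bool) → Bool) (f : (ι → Bool) → Bool)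
    (hfg : ∀ x : ι → Bool, g (fun v => Sum.elim x id (c v)) = f x) (T : ℕ)
    (h : RandComputes g T) : RandComputes f T := by
  obtain ⟨p, hp, hx⟩ := h
  refine ⟨p.map (subT c), ?_, ?_⟩
  · intro t ht
    rw [PMF.support_map] at ht
    obtain ⟨t', ht', rfl⟩ := ht
    exact (subT_depth c t').trans (hp t' ht')
  · intro x
    rw [PMF.toOuterMeasure_map_apply]
    have hset : (subT c) ⁻¹' {t | t.eval x = f x} =
        {t | t.eval (fun v => Sum.elim x id (c v)) = g (fun v => Sum.elim x id (c v))} := by
      ext t
      simp only [Set.mem_preimage, Set.mem_ofPred_eq, subT_eval, hfg]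
    rw [hset]
    exact hx _

end restrict

/-! ### adding a parity -/

section xor

variable {ι : Type}

/-- the list of the fresh bits -/
def fresh (ι : Type) (m : ℕ) : List (ι ⊕ Fin m) := (List.finRange m).map Sum.inr

theorem fresh_length (m : ℕ) : (fresh ι m).length = m := by
  simp [fresh]

theorem fresh_nodup (m : ℕ) : (fresh ι m).Nodup :=
  (List.nodup_finRange m).map Sum.inr_injective

theorem mem_fresh (m : ℕ) (j : Fin m) : (Sum.inr j : ι ⊕ Fin m) ∈ fresh ι m :=
  List.mem_map.2 ⟨j, List.mem_finRange j, rfl⟩

/-- the exclusive or of `f` and of the parity of `m` fresh bits -/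
def xf (f : (ι → Bool) → Bool) (m : ℕ) (x : ι ⊕ Fin m → Bool) : Bool :=
  xor (f fun i => x (Sum.inl i)) (par x (fresh ι m))

theorem xf_tree (f : (ι → Bool) → Bool) (m d : ℕ) (t : DT ι) (ht : t.depth ≤ d)
    (he : ∀ x, t.eval x = f x) :
    ∃ t' : DT (ι ⊕ Fin m), t'.depth ≤ d + m ∧ ∀ x, t'.eval x = xf f m x := by
  refine ⟨QM.bindT (Tr.mapT Sum.inl t) (fun b => parT (fresh ι m) b), ?_, fun x => ?_⟩
  · refine QM.bindT_depth _ _ d m ?_ fun b => ?_
    · rw [Tr.mapT_depth]
      exact ht
    · rw [parT_depth, fresh_length]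
  · rw [QM.bindT_eval, parT_eval, Tr.mapT_eval, he]
    rfl

theorem par_zero {κ : Type} (l : List κ) (x : κ → Bool) (h : ∀ i ∈ l, x i = false) :
    par x l = false := by
  induction l with
  | nil => rfl
  | cons i l ih =>
    have h1 : par x (i :: l) = xor (x i) (par x l) := rfl
    rw [h1, h i List.mem_cons_self, ih fun j hj => h j (List.mem_cons_of_mem i hj)]
    rfl

theorem R_le_xf [Fintype ι] [DecidableEq ι] (f : (ι → Bool) → Bool) (m : ℕ) :
    R f ≤ R (xf f m) := by
  refine Nat.sInf_le (rand_restrict (Sum.elim Sum.inl fun _ => Sum.inr false) (xf f m) f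
    (fun x => ?_) _ (Tr.rand_R (xf f m)))
  unfold xf
  rw [par_zero, Bool.xor_false]
  · rfl
  · intro i hi
    obtain ⟨j, _, rfl⟩ := List.mem_map.1 hi
    rfl

variable [Fintype ι] [DecidableEq ι]

omit [Fintype ι] in
theorem xf_flp (f : (ι → Bool) → Bool) (m : ℕ) (x : ι ⊕ Fin m → Bool) (j : Fin m) :
    xf f m (flp x (Sum.inr j)) ≠ xf f m x := by
  unfold xf
  rw [par_flp_mem (fresh_nodup m) (mem_fresh m j)]
  have h : (fun i : ι => flp x (Sum.inr j : ι ⊕ Fin m) (Sum.inl i)) = fun i => x (Sum.inl i) := by
    funext i
    exact Function.update_of_ne Sum.inl_ne_inr _ _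
  rw [h]
  cases f (fun i => x (Sum.inl i)) <;> cases par x (fresh ι m) <;> simp

theorem le_of_quant_xf (f : (ι → Bool) → Bool) (m T : ℕ) (h : QuantComputes (xf f m) T) :
    (m : ℝ) ≤ 40 * T := by
  have h1 := card_le_of_quant (xf f m) (Finset.univ.map ⟨Sum.inr, Sum.inr_injective⟩)
    (fun x i hi => by
      obtain ⟨j, _, rfl⟩ := Finset.mem_map.1 hi
      exact xf_flp f m x j) T h
  rw [Finset.card_map, Finset.card_univ, Fintype.card_fin] at h1
  exact h1

theorem quant_xf [Nonempty ι] (f : (ι → Bool) → Bool) (m T : ℕ) (h : QuantComputes f T) :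
    QuantComputes (xf f m) (T + m) := by
  obtain ⟨μ, hμ, hx⟩ := ach_of_quant h
  have h1 := ach_rename hμ (Sum.inl : ι → ι ⊕ Fin m)
  have h2 : ∀ b : Bool, Ach m (fun (x : ι ⊕ Fin m → Bool) (c : Bool) =>
      if (parT (fresh ι m) b).eval x = c then (1 : ℝ) else 0) := by
    intro b
    have h3 := AmpAux.ach_dt (parT (fresh ι m) b) (id : Bool → Bool)
    rw [parT_depth, fresh_length] at h3
    exact h3
  have h4 := h1.bind h2
  refine quantComputes_of_ach (xf f m) (T + m) _ h4 fun x => ?_
  refine (hx (fun i => x (Sum.inl i))).trans ?_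
  have h5 := Finset.single_le_sum (s := (Finset.univ : Finset Bool)) (f := fun a : Bool =>
      μ (fun i => x (Sum.inl i)) a *
        (if (parT (fresh ι m) a).eval x = xf f m x then (1 : ℝ) else 0))
    (fun a _ => mul_nonneg (hμ.nonneg _ _) (by split_ifs <;> norm_num))
    (Finset.mem_univ (f fun i => x (Sum.inl i)))
  refine le_trans (le_of_eq ?_) h5
  have h6 : (parT (fresh ι m) (f fun i => x (Sum.inl i))).eval x = xf f m x := by
    rw [parT_eval]
    rfl
  simp only [h6, if_true, mul_one]

end xor

end Vale.Agent.P362.H32
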